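import Mathlib

/-!
# The Borsuk–Ulam theorem

An elementary proof: Ky Fan's parity count for labellings, evaluated on mod-2 chains in the
iterated barycentric subdivision of the cross-polytope.
-/

open Set Filter Topology Metric
open scoped Pointwise

namespace Vale.Agent.Common.BorsukUlam

/-! ### Mod-2 evaluation of simplicial chains given as lists -/

section Chains

variable {α β : Type*}

/-- The value of a cochain on a chain. -/
def ev (c : List (List α)) (φ : List α → ZMod 2) : ZMod 2 := (c.map φ).sum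

/-- The coboundary. -/
def delta : (List α → ZMod 2) → List α → ZMod 2
  | _, [] => 0
  | φ, a :: l => φ l + delta (fun x => φ (a :: x)) l

/-- The facets of a simplex. -/
def faces : List α → List (List α)
  | [] => []
  | a :: l => l :: (faces l).map (a :: ·)

lemma delta_add : ∀ (φ ψ : List α → ZMod 2) (l : List α),
    delta (fun x => φ x + ψ x) l = delta φ l + delta ψ l
  | _, _, [] => by simp [delta]
  | φ, ψ, a :: l => by simp only [delta, delta_add _ _ l]; ring

lemma delta_delta : ∀ (φ : List α → ZMod 2) (l : List α), delta (delta φ) l = 0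
  | _, [] => rfl
  | φ, a :: l => by
    simp only [delta]
    rw [delta_add, delta_delta _ l, add_zero]
    exact CharTwo.add_self_eq_zero _

lemma ev_faces : ∀ (φ : List α → ZMod 2) (l : List α), ev (faces l) φ = delta φ l
  | _, [] => rfl
  | φ, a :: l => by
    simp only [faces, delta, ← ev_faces _ l, ev, List.map_cons, List.sum_cons, List.map_map,
      Function.comp_def]

lemma length_faces : ∀ (l : List α), ∀ τ ∈ faces l, τ.length + 1 = l.length
  | [], _, h => by simp [faces] at h
  | a :: l, τ, h => by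
    simp only [faces, List.mem_cons, List.mem_map] at h
    rcases h with rfl | ⟨x, hx, rfl⟩
    · rfl
    · have := length_faces l x hx
      simp only [List.length_cons]
      omega

lemma subset_faces : ∀ (l : List α), ∀ τ ∈ faces l, ∀ x ∈ τ, x ∈ l
  | [], _, h => by simp [faces] at h
  | a :: l, τ, h => by
    simp only [faces, List.mem_cons, List.mem_map] at h
    rcases h with rfl | ⟨y, hy, rfl⟩
    · exact fun x hx => List.mem_cons_of_mem _ hx
    · intro x hx
      rcases List.mem_cons.1 hx with rfl | hx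
      · exact List.mem_cons_self
      · exact List.mem_cons_of_mem _ (subset_faces l y hy x hx)

lemma delta_map (g : α → β) : ∀ (φ : List β → ZMod 2) (l : List α),
    delta (fun x => φ (x.map g)) l = delta φ (l.map g)
  | _, [] => rfl
  | φ, a :: l => by
    simp only [List.map_cons, delta]
    rw [← delta_map g (fun x => φ (g a :: x)) l]

lemma delta_congr : ∀ (φ ψ : List α → ZMod 2) (l : List α),
    (∀ x, (∀ y ∈ x, y ∈ l) → φ x = ψ x) → delta φ l = delta ψ l
  | _, _, [], _ => rfl
  | φ, ψ, a :: l, h => by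
    simp only [delta]
    rw [h l fun y hy => List.mem_cons_of_mem _ hy,
      delta_congr (fun x => φ (a :: x)) (fun x => ψ (a :: x)) l fun x hx => h _ fun y hy => by
        rcases List.mem_cons.1 hy with rfl | hy
        · exact List.mem_cons_self
        · exact List.mem_cons_of_mem _ (hx y hy)]

lemma delta_perm {l l' : List α} (h : l.Perm l') : ∀ φ : List α → ZMod 2,
    (∀ x y : List α, x.Perm y → φ x = φ y) → delta φ l = delta φ l' := by
  induction h with
  | nil => intros; rfl
  | cons a hp ih =>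
    intro φ hφ
    simp only [delta]
    rw [hφ _ _ hp, ih _ fun x y hxy => hφ _ _ (hxy.cons a)]
  | swap a b l =>
    intro φ hφ
    simp only [delta]
    rw [delta_congr (fun x => φ (b :: a :: x)) (fun x => φ (a :: b :: x)) l
      fun x _ => hφ _ _ (List.Perm.swap a b x)]
    ring
  | trans _ _ ih₁ ih₂ => intro φ hφ; rw [ih₁ φ hφ, ih₂ φ hφ]

lemma ev_add (c : List (List α)) (φ ψ : List α → ZMod 2) :
    ev c (fun x => φ x + ψ x) = ev c φ + ev c ψ := List.sum_map_add

lemma ev_flatMap {γ : Type*} (c : List γ) (g : γ → List (List α)) (φ : List α → ZMod 2) :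
    ev (c.flatMap g) φ = (c.map fun x => ev (g x) φ).sum := by
  induction c with
  | nil => rfl
  | cons a c ih =>
    simp only [ev] at ih
    simp only [ev, List.flatMap_cons, List.map_append, List.sum_append, List.map_cons, List.sum_cons,
      ih]

lemma ev_congr (c : List (List α)) {φ ψ : List α → ZMod 2} (h : ∀ σ ∈ c, φ σ = ψ σ) :
    ev c φ = ev c ψ := by
  rw [ev, ev, List.map_congr_left h]

end Chains

/-! ### Ky Fan's parity identity -/

section Labels

/-- Strictly increasing indices with alternating signs, starting with `s`. -/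
def AltW : Bool → List (ℕ × Bool) → Prop
  | _, [] => True
  | s, a :: l => a.2 = s ∧ (∀ b ∈ l, a.1 < b.1) ∧ AltW (!s) l

open Classical in
/-- The indicator of alternating labellings. -/
noncomputable def A (s : Bool) (l : List (ℕ × Bool)) : ZMod 2 :=
  if ∃ l', l'.Perm l ∧ AltW s l' then 1 else 0

lemma A_perm (s : Bool) {l l' : List (ℕ × Bool)} (h : l.Perm l') : A s l = A s l' := by
  classical
  simp only [A]
  exact if_congr ⟨fun ⟨x, hx, hx'⟩ => ⟨x, hx.trans h, hx'⟩,
    fun ⟨x, hx, hx'⟩ => ⟨x, hx.trans h.symm, hx'⟩⟩ rfl rfl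

lemma AltW.pairwise : ∀ {s : Bool} {l : List (ℕ × Bool)}, AltW s l →
    l.Pairwise (fun a b => a.1 < b.1)
  | _, [], _ => List.Pairwise.nil
  | _, _ :: _, h => List.pairwise_cons.2 ⟨h.2.1, AltW.pairwise h.2.2⟩

lemma A_sorted (s : Bool) {l : List (ℕ × Bool)} (hl : l.Pairwise fun a b => a.1 < b.1)
    [Decidable (AltW s l)] : A s l = if AltW s l then 1 else 0 := by
  classical
  simp only [A]
  refine if_congr ⟨fun ⟨x, hx, hx'⟩ => ?_, fun h => ⟨l, List.Perm.refl l, h⟩⟩ rfl rfl
  have : x = l := List.Perm.eq_of_pairwise (le := fun a b => a.1 < b.1)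
    (fun a b _ _ h1 h2 => absurd h1 (by omega)) hx'.pairwise hl hx
  exact this ▸ hx'

lemma A_of_dup (s : Bool) {l : List (ℕ × Bool)} (h : ¬ (l.map Prod.fst).Nodup) : A s l = 0 := by
  classical
  simp only [A]
  refine if_neg ?_
  rintro ⟨x, hx, hx'⟩
  refine h ((hx.map Prod.fst).nodup_iff.1 ?_)
  exact (List.pairwise_map (R := (· ≠ ·))).2 (hx'.pairwise.imp fun h => h.ne)

lemma A_flip_add (l : List (ℕ × Bool)) (s : Bool) : A s l + A (!s) l = A true l + A false l := by
  cases s <;> simp [add_comm]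

/-- The identity `δ A₊ = A₊ + A₋` on increasing labellings. -/
lemma delta_A_sorted : ∀ (l : List (ℕ × Bool)) (s : Bool),
    l.Pairwise (fun a b => a.1 < b.1) → delta (A s) l = A s l + A (!s) l
  | [], s, _ => by
    classical
    rw [A_sorted s List.Pairwise.nil, A_sorted (!s) List.Pairwise.nil]
    simp only [delta, AltW]
    exact (CharTwo.add_self_eq_zero _).symm
  | a :: l, s, hl => by
    classical
    obtain ⟨ha, hl'⟩ := List.pairwise_cons.1 hl
    have hsub : ∀ x : List (ℕ × Bool), (∀ y ∈ x, y ∈ l) →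
        A s (a :: x) = if a.2 = s then A (!s) x else 0 := by
      intro x hx
      by_cases hnd : (x.map Prod.fst).Nodup
      · obtain ⟨x', hx', hs'⟩ : ∃ x' : List (ℕ × Bool), x'.Perm x ∧ x'.Pairwise (fun a b => a.1 < b.1) := by
          refine ⟨x.mergeSort (fun a b => decide (a.1 ≤ b.1)), List.mergeSort_perm _ _, ?_⟩
          have h1 := List.pairwise_mergeSort (le := fun a b : ℕ × Bool => decide (a.1 ≤ b.1))
            (fun a b c h1 h2 => by simp only [decide_eq_true_eq] at *; omega)
            (fun a b => by simp only [Bool.or_eq_true, decide_eq_true_eq]; omega) x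
          have h2 : ((x.mergeSort fun a b => decide (a.1 ≤ b.1)).map Prod.fst).Pairwise (· ≠ ·) :=
            (((List.mergeSort_perm x _).map Prod.fst).nodup_iff.2 hnd)
          exact (h1.and (List.pairwise_map.1 h2)).imp fun ⟨u, v⟩ =>
            lt_of_le_of_ne (of_decide_eq_true u) v
        have hax : (a :: x').Pairwise fun a b => a.1 < b.1 :=
          List.pairwise_cons.2 ⟨fun y hy => ha y (hx y (hx'.subset hy)), hs'⟩
        rw [← A_perm s (hx'.cons a), ← A_perm (!s) hx', A_sorted s hax, A_sorted (!s) hs']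
        have : AltW s (a :: x') ↔ a.2 = s ∧ AltW (!s) x' :=
          ⟨fun h => ⟨h.1, h.2.2⟩, fun h => ⟨h.1, (List.pairwise_cons.1 hax).1, h.2⟩⟩
        simp only [this]
        by_cases h : a.2 = s <;> simp [h]
      · rw [A_of_dup _ hnd, A_of_dup s (fun h => hnd (List.nodup_cons.1 (show ((a :: x).map Prod.fst).Nodup from h)).2)]
        simp
    rw [delta, delta_congr (fun x => A s (a :: x)) (fun x => if a.2 = s then A (!s) x else 0) l hsub]
    have hself : ∀ t, A t (a :: l) = if a.2 = t then A (!t) l else 0 := by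
      intro t
      rw [A_sorted t hl, A_sorted (!t) hl']
      have : AltW t (a :: l) ↔ a.2 = t ∧ AltW (!t) l :=
        ⟨fun h => ⟨h.1, h.2.2⟩, fun h => ⟨h.1, ha, h.2⟩⟩
      simp only [this]
      by_cases h : a.2 = t <;> simp [h]
    rw [hself s, hself (!s), Bool.not_not]
    by_cases h : a.2 = s
    · have h' : ¬ a.2 = !s := by rw [h]; cases s <;> simp
      simp only [h, if_true]
      rw [delta_A_sorted l (!s) hl', Bool.not_not, if_neg (by cases s <;> simp)]
      calc A s l + (A (!s) l + A s l) = A (!s) l + (A s l + A s l) := by ring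
        _ = A (!s) l + 0 := by rw [CharTwo.add_self_eq_zero]
    · have h' : a.2 = !s := by cases s <;> simp_all
      simp only [if_neg h]
      rw [if_pos h', show delta (fun _ : List (ℕ × Bool) => (0 : ZMod 2)) l = 0 from by
        have := delta_add (fun _ : List (ℕ × Bool) => (0 : ZMod 2)) (fun _ => 0) l
        simp only [add_zero] at this
        linear_combination -this]
      ring

/-- **Fan's identity**: `δ A₊ = A₊ + A₋` on labellings without complementary pairs. -/
lemma delta_A {l : List (ℕ × Bool)} (hl : ∀ a ∈ l, ∀ b ∈ l, a.1 = b.1 → a = b) :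
    delta (A true) l = A true l + A false l := by
  classical
  by_cases hnd : (l.map Prod.fst).Nodup
  · set l' := l.mergeSort (fun a b => decide (a.1 ≤ b.1)) with hl'
    have hp : l'.Perm l := List.mergeSort_perm _ _
    have h1 := List.pairwise_mergeSort (le := fun a b : ℕ × Bool => decide (a.1 ≤ b.1))
      (fun a b c h1 h2 => by simp only [decide_eq_true_eq] at *; omega)
      (fun a b => by simp only [Bool.or_eq_true, decide_eq_true_eq]; omega) l
    have h2 : (l'.map Prod.fst).Pairwise (· ≠ ·) := ((hp.map Prod.fst).nodup_iff.2 hnd)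
    have h3 : l'.Pairwise fun a b => a.1 < b.1 := (h1.and (List.pairwise_map.1 h2)).imp
      fun ⟨u, v⟩ => lt_of_le_of_ne (of_decide_eq_true u) v
    rw [← delta_perm hp _ (fun x y h => A_perm true h), ← A_perm true hp, ← A_perm false hp]
    exact delta_A_sorted l' true h3
  · obtain ⟨a, ha⟩ : ∃ a, List.Duplicate a l := by
      rw [List.exists_duplicate_iff_not_nodup]
      intro h
      exact hnd ((List.nodup_map_iff_inj_on h).2 fun x hx y hy e => hl x hx y hy e)
    obtain ⟨l₂, hl₂⟩ : ∃ l₂, l.Perm (a :: a :: l₂) := by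
      have h2 : List.Sublist [a, a] l := List.duplicate_iff_sublist.1 ha
      exact h2.exists_perm_append
    rw [delta_perm hl₂ _ (fun x y h => A_perm true h), A_perm true hl₂, A_perm false hl₂]
    have hdup : ∀ s (x : List (ℕ × Bool)), A s (a :: a :: x) = 0 := fun s x =>
      A_of_dup s (by simp)
    simp only [delta, hdup]
    rw [show delta (fun _ : List (ℕ × Bool) => (0 : ZMod 2)) l₂ = 0 from by
      have := delta_add (fun _ : List (ℕ × Bool) => (0 : ZMod 2)) (fun _ => 0) l₂
      simp only [add_zero] at this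
      linear_combination -this]
    rw [← add_assoc, CharTwo.add_self_eq_zero]

lemma A_neg (s : Bool) (l : List (ℕ × Bool)) :
    A s (l.map fun a => (a.1, !a.2)) = A (!s) l := by
  classical
  have key : ∀ (x : List (ℕ × Bool)) (t : Bool),
      AltW t (x.map fun a => (a.1, !a.2)) ↔ AltW (!t) x := by
    intro x
    induction x with
    | nil => simp [AltW]
    | cons a x ih =>
      intro t
      simp only [List.map_cons, AltW, List.forall_mem_map, ih]
      cases a.2 <;> cases t <;> simp
  have hinv : ∀ x : List (ℕ × Bool),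
      (x.map fun a => (a.1, !a.2)).map (fun a => (a.1, !a.2)) = x := fun x => by
    simp [Function.comp_def]
  simp only [A]
  refine if_congr ⟨fun ⟨x, hx, hx'⟩ => ?_, fun ⟨x, hx, hx'⟩ => ?_⟩ rfl rfl
  · refine ⟨x.map fun a => (a.1, !a.2), ?_, ?_⟩
    · have := hx.map (fun a : ℕ × Bool => (a.1, !a.2))
      rwa [hinv] at this
    · rw [key, Bool.not_not]; exact hx'
  · exact ⟨x.map fun a => (a.1, !a.2), hx.map _, (key x s).2 hx'⟩

lemma A_eq_zero_of_card (s : Bool) {l : List (ℕ × Bool)} {n : ℕ} (hlt : ∀ a ∈ l, a.1 < n)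
    (hn : n < l.length) : A s l = 0 := by
  refine A_of_dup s fun h => ?_
  have h1 : (l.map Prod.fst).toFinset ⊆ Finset.range n := fun i hi => by
    simp only [List.mem_toFinset, List.mem_map] at hi
    obtain ⟨a, ha, rfl⟩ := hi
    exact Finset.mem_range.2 (hlt a ha)
  have h2 := Finset.card_le_card h1
  rw [List.toFinset_card_of_nodup h, List.length_map, Finset.card_range] at h2
  omega

/-- Tucker's lemma for chains: no labelling without complementary pairs exists. -/
theorem tucker {X : Type*} [Neg X] {n : ℕ} (C : ℕ → List (List X))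
    (lab : X → ℕ × Bool)
    (hbd : ∀ k < n, ∀ φ : List X → ZMod 2,
      ev (C (k + 1)) (delta φ) = ev (C k) φ + ev (C k) (fun σ => φ (σ.map Neg.neg)))
    (h0 : ∃ x, C 0 = [[x]])
    (hlen : ∀ σ ∈ C n, n < σ.length)
    (hlt : ∀ σ ∈ C n, ∀ x ∈ σ, (lab x).1 < n)
    (hodd : ∀ k ≤ n, ∀ σ ∈ C k, ∀ x ∈ σ, lab (-x) = ((lab x).1, !(lab x).2))
    (hgood : ∀ k ≤ n, ∀ σ ∈ C k, ∀ x ∈ σ, ∀ y ∈ σ, (lab x).1 = (lab y).1 → lab x = lab y) :
    False := by
  classical
  have key : ∀ k ≤ n, ev (C k) (fun σ => A true (σ.map lab) + A false (σ.map lab)) = 1 := by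
    intro k
    induction k with
    | zero =>
      intro _
      obtain ⟨x, hx⟩ := h0
      simp only [hx, ev, List.map_cons, List.map_nil, List.sum_cons, List.sum_nil, add_zero]
      rw [A_sorted true (List.pairwise_singleton _ _), A_sorted false (List.pairwise_singleton _ _)]
      rcases lab x with ⟨i, _ | _⟩ <;> simp [AltW]
    | succ k ih =>
      intro hk
      have h1 : ev (C (k + 1)) (fun σ => A true (σ.map lab) + A false (σ.map lab)) =
          ev (C (k + 1)) (delta fun σ => A true (σ.map lab)) := by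
        refine ev_congr _ fun σ hσ => ?_
        rw [delta_map lab (A true), delta_A]
        intro a ha b hb e
        simp only [List.mem_map] at ha hb
        obtain ⟨x, hx, rfl⟩ := ha
        obtain ⟨y, hy, rfl⟩ := hb
        exact hgood _ hk σ hσ x hx y hy e
      rw [h1, hbd k (by omega), ← ev_add, ← ih (by omega)]
      refine ev_congr _ fun σ hσ => ?_
      show _ + A true ((σ.map Neg.neg).map lab) = _
      rw [List.map_map, show A true (σ.map (lab ∘ Neg.neg)) = A false (σ.map lab) from ?_]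
      rw [show σ.map (lab ∘ Neg.neg) = (σ.map lab).map (fun a => (a.1, !a.2)) by
        rw [List.map_map]
        exact List.map_congr_left fun x hx => hodd k (by omega) σ hσ x hx, A_neg, Bool.not_true]
  have h := key n le_rfl
  rw [ev_congr (ψ := fun _ => 0) (C n) fun σ hσ => ?_] at h
  · simp [ev] at h
  have hl : n < (σ.map lab).length := by rw [List.length_map]; exact hlen σ hσ
  have hl' : ∀ a ∈ σ.map lab, a.1 < n := by
    intro a ha
    simp only [List.mem_map] at ha
    obtain ⟨x, hx, rfl⟩ := ha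
    exact hlt σ hσ x hx
  rw [A_eq_zero_of_card _ hl' hl, A_eq_zero_of_card _ hl' hl, add_zero]

end Labels

/-! ### Barycentric subdivision -/

section Subdivision

variable {V : Type*} [NormedAddCommGroup V] [NormedSpace ℝ V]

/-- The barycentre. -/
noncomputable def bary (σ : List V) : V := (σ.length : ℝ)⁻¹ • σ.sum

/-- Barycentric subdivision of a simplex with `k` vertices. -/
noncomputable def sd : ℕ → List V → List (List V)
  | 0, _ => [[]]
  | k + 1, σ => (faces σ).flatMap fun τ => (sd k τ).map (bary σ :: ·)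

/-- Iterated subdivision. -/
noncomputable def sdIter : ℕ → List V → List (List V)
  | 0, σ => [σ]
  | m + 1, σ => (sdIter m σ).flatMap fun τ => sd τ.length τ

lemma length_sd : ∀ (k : ℕ) (σ : List V), σ.length = k → ∀ τ ∈ sd k σ, τ.length = k
  | 0, _, _, τ, h => by simp [sd] at h; simp [h]
  | k + 1, σ, hσ, τ, h => by
    simp only [sd, List.mem_flatMap, List.mem_map] at h
    obtain ⟨ρ, hρ, x, hx, rfl⟩ := h
    have h1 := length_faces σ ρ hρ
    simp [length_sd k ρ (by omega) x hx]

lemma sd_boundary : ∀ (k : ℕ) (σ : List V), σ.length = k + 1 → ∀ φ : List V → ZMod 2,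
    ev (sd (k + 1) σ) (delta φ) = ev (faces σ) (fun τ => ev (sd k τ) φ) := by
  intro k
  induction k with
  | zero =>
    intro σ hσ φ
    obtain ⟨x, rfl⟩ := List.length_eq_one_iff.1 hσ
    simp [sd, faces, ev, delta]
  | succ k ih =>
    intro σ hσ φ
    set b := bary σ
    have h1 : ev (sd (k + 1 + 1) σ) (delta φ) =
        ev (faces σ) (fun τ => ev (sd (k + 1) τ) φ) +
          ev (faces σ) (fun τ => ev (sd (k + 1) τ) (delta fun x => φ (b :: x))) := by
      rw [← ev_add]
      show ev ((faces σ).flatMap fun τ => (sd (k + 1) τ).map (b :: ·)) (delta φ) = _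
      rw [ev_flatMap]
      refine congrArg List.sum (List.map_congr_left fun τ _ => ?_)
      simp only [ev, List.map_map, Function.comp_def, delta]
      exact List.sum_map_add
    have h2 : ev (faces σ) (fun τ => ev (sd (k + 1) τ) (delta fun x => φ (b :: x))) =
        ev (faces σ) (delta fun ρ => ev (sd k ρ) (fun x => φ (b :: x))) := by
      refine ev_congr _ fun τ hτ => ?_
      rw [ih τ (by have := length_faces σ τ hτ; omega), ev_faces]
    rw [h1, h2, ev_faces _ σ, ev_faces _ σ, delta_delta, add_zero]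

lemma sdIter_length : ∀ (m : ℕ) (σ : List V), ∀ τ ∈ sdIter m σ, τ.length = σ.length
  | 0, σ, τ, h => by simp [sdIter] at h; simp [h]
  | m + 1, σ, τ, h => by
    simp only [sdIter, List.mem_flatMap] at h
    obtain ⟨ρ, hρ, hτ⟩ := h
    rw [length_sd ρ.length ρ rfl τ hτ, sdIter_length m σ ρ hρ]

lemma sdIter_boundary : ∀ (m : ℕ) (σ : List V), 0 < σ.length → ∀ φ : List V → ZMod 2,
    ev (sdIter m σ) (delta φ) = ev (faces σ) (fun τ => ev (sdIter m τ) φ)
  | 0, σ, _, φ => by
    simp only [sdIter, ev, List.map_cons, List.map_nil, List.sum_cons, List.sum_nil, add_zero]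
    exact (ev_faces φ σ).symm
  | m + 1, σ, hσ, φ => by
    simp only [sdIter, ev_flatMap]
    have h1 : ((sdIter m σ).map fun τ => ev (sd τ.length τ) (delta φ)).sum =
        ev (sdIter m σ) (delta fun ρ => ev (sd ρ.length ρ) φ) := by
      refine congrArg List.sum (List.map_congr_left fun τ hτ => ?_)
      have hl := sdIter_length m σ τ hτ
      obtain ⟨k, hk⟩ : ∃ k, τ.length = k + 1 := ⟨τ.length - 1, by omega⟩
      rw [hk, sd_boundary k τ hk, ← ev_faces]
      refine ev_congr _ fun ρ hρ => ?_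
      rw [show k = ρ.length by have := length_faces τ ρ hρ; omega]
    rw [h1, sdIter_boundary m σ hσ]
    rfl

lemma map_sd (g : V →ₗ[ℝ] V) : ∀ (k : ℕ) (σ : List V),
    sd k (σ.map g) = (sd k σ).map (List.map g)
  | 0, _ => rfl
  | k + 1, σ => by
    have hb : bary (σ.map g) = g (bary σ) := by
      simp only [bary, List.length_map, map_smul, map_list_sum]
    have hf : ∀ l : List V, faces (l.map g) = (faces l).map (List.map g) := by
      intro l
      induction l with
      | nil => rfl
      | cons a l ih =>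
        simp only [List.map_cons, faces, ih, List.map_map]
        rfl
    simp only [sd, hf, List.flatMap_map, List.map_flatMap, map_sd g k, List.map_map, hb]
    rfl

lemma map_sdIter (g : V →ₗ[ℝ] V) : ∀ (m : ℕ) (σ : List V),
    sdIter m (σ.map g) = (sdIter m σ).map (List.map g)
  | 0, _ => rfl
  | m + 1, σ => by
    simp only [sdIter, map_sdIter g m, List.flatMap_map, List.map_flatMap, List.length_map, map_sd g]

lemma bary_mem {σ : List V} (hσ : σ ≠ []) {S : Set V} (hS : Convex ℝ S) (h : ∀ x ∈ σ, x ∈ S) :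
    bary σ ∈ S := by
  have hl : (0 : ℝ) < σ.length := by exact_mod_cast List.length_pos_iff.2 hσ
  have e : σ.sum = ∑ i : Fin σ.length, σ[i] := (Fin.sum_univ_getElem σ).symm
  rw [bary, e, Finset.smul_sum]
  refine hS.sum_mem (fun _ _ => inv_nonneg.2 hl.le) ?_ fun i _ => h _ (List.getElem_mem _)
  rw [Finset.sum_const, Finset.card_univ, Fintype.card_fin, nsmul_eq_mul, mul_inv_cancel₀ hl.ne']

/-- Subdivision stays inside convex sets. -/
lemma sd_mem {S : Set V} (hS : Convex ℝ S) : ∀ (k : ℕ) (σ : List V), (∀ x ∈ σ, x ∈ S) →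
    ∀ τ ∈ sd k σ, ∀ x ∈ τ, x ∈ S
  | 0, _, _, τ, h => by simp [sd] at h; simp [h]
  | k + 1, σ, hσ, τ, h => by
    simp only [sd, List.mem_flatMap, List.mem_map] at h
    obtain ⟨ρ, hρ, y, hy, rfl⟩ := h
    have hne : σ ≠ [] := by rintro rfl; simp [faces] at hρ
    intro x hx
    rcases List.mem_cons.1 hx with rfl | hx
    · exact bary_mem hne hS hσ
    · exact sd_mem hS k ρ (fun z hz => hσ z (subset_faces σ ρ hρ z hz)) y hy x hx

lemma norm_bary_sub {σ : List V} {M : ℝ} (hM : ∀ x ∈ σ, ∀ y ∈ σ, ‖x - y‖ ≤ M)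
    {x : V} (hx : x ∈ σ) : ‖bary σ - x‖ ≤ ((σ.length : ℝ) - 1) / σ.length * M := by
  obtain ⟨i₀, hi₀, rfl⟩ := List.mem_iff_getElem.1 hx
  have hl : (0 : ℝ) < σ.length := by exact_mod_cast (Nat.lt_of_le_of_lt (Nat.zero_le _) hi₀)
  have e : σ.sum = ∑ i : Fin σ.length, σ[i] := (Fin.sum_univ_getElem σ).symm
  have e2 : bary σ - σ[i₀] = (σ.length : ℝ)⁻¹ • ∑ i : Fin σ.length, (σ[i] - σ[i₀]) := by
    rw [Finset.sum_sub_distrib, Finset.sum_const, Finset.card_univ, Fintype.card_fin, smul_sub,
      ← Nat.cast_smul_eq_nsmul ℝ, inv_smul_smul₀ hl.ne', bary, e]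
  have h2 : ‖∑ i : Fin σ.length, (σ[i] - σ[i₀])‖ ≤ ((σ.length : ℝ) - 1) * M := by
    rw [← Finset.add_sum_erase _ _ (Finset.mem_univ (⟨i₀, hi₀⟩ : Fin σ.length))]
    simp only [Fin.getElem_fin, sub_self, zero_add]
    refine (norm_sum_le _ _).trans ((Finset.sum_le_sum
      fun i _ => hM _ (List.getElem_mem _) _ (List.getElem_mem _)).trans ?_)
    rw [Finset.sum_const, Finset.card_erase_of_mem (Finset.mem_univ _), Finset.card_univ,
      Fintype.card_fin, nsmul_eq_mul, Nat.cast_sub (by omega : 1 ≤ σ.length), Nat.cast_one]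
  rw [e2, norm_smul, norm_inv, Real.norm_natCast, div_mul_eq_mul_div, inv_mul_eq_div]
  exact div_le_div_of_nonneg_right h2 hl.le

/-- The mesh of the subdivision. -/
lemma sd_mesh : ∀ (k : ℕ) (σ : List V), σ.length = k → ∀ M : ℝ, 0 ≤ M →
    (∀ x ∈ σ, ∀ y ∈ σ, ‖x - y‖ ≤ M) →
    ∀ τ ∈ sd k σ, ∀ x ∈ τ, ∀ y ∈ τ, ‖x - y‖ ≤ ((k : ℝ) - 1) / k * M
  | 0, _, _, _, _, _, τ, h => by simp [sd] at h; simp [h]
  | k + 1, σ, hσ, M, hM0, hM, τ, h => by
    simp only [sd, List.mem_flatMap, List.mem_map] at h
    obtain ⟨ρ, hρ, z, hz, rfl⟩ := h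
    have hρl : ρ.length = k := by have := length_faces σ ρ hρ; omega
    set c : ℝ := (((k + 1 : ℕ) : ℝ) - 1) / ((k + 1 : ℕ) : ℝ) * M with hc
    have hc0 : 0 ≤ c := by rw [hc]; push_cast; simp only [add_sub_cancel_right]; positivity
    have hball : ∀ x ∈ z, ‖bary σ - x‖ ≤ c := by
      intro x hx
      have := sd_mem (convex_closedBall (bary σ) c) k ρ (fun y hy => by
        rw [mem_closedBall, dist_eq_norm, norm_sub_rev]
        have := norm_bary_sub hM (subset_faces σ ρ hρ y hy)
        rwa [hσ] at this) z hz x hx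
      rwa [mem_closedBall, dist_eq_norm, norm_sub_rev] at this
    intro x hx y hy
    rcases List.mem_cons.1 hx with rfl | hx <;> rcases List.mem_cons.1 hy with rfl | hy
    · simpa using hc0
    · exact hball y hy
    · rw [norm_sub_rev]; exact hball x hx
    · have hk : 0 < k := by
        rcases Nat.eq_zero_or_pos k with rfl | hk
        · simp [sd] at hz; simp [hz] at hx
        · exact hk
      have h1 := sd_mesh k ρ hρl M hM0
        (fun a ha b hb => hM a (subset_faces σ ρ hρ a ha) b (subset_faces σ ρ hρ b hb)) z hz x hx y hy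
      refine h1.trans (mul_le_mul_of_nonneg_right ?_ hM0)
      have hk' : (0 : ℝ) < k := by exact_mod_cast hk
      push_cast
      rw [div_le_div_iff₀ hk' (by positivity)]
      nlinarith

/-- Iterated subdivision stays in convex sets and its mesh tends to zero. -/
lemma sdIter_spec {S : Set V} (hS : Convex ℝ S) {σ : List V} (hσ : ∀ x ∈ σ, x ∈ S) {M : ℝ}
    (hM0 : 0 ≤ M) (hM : ∀ x ∈ σ, ∀ y ∈ σ, ‖x - y‖ ≤ M) {N : ℕ} (hN : σ.length ≤ N) :
    ∀ m, ∀ τ ∈ sdIter m σ, (∀ x ∈ τ, x ∈ S) ∧
      ∀ x ∈ τ, ∀ y ∈ τ, ‖x - y‖ ≤ ((N : ℝ) / (N + 1)) ^ m * M := by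
  intro m
  induction m with
  | zero =>
    intro τ h
    simp [sdIter] at h
    subst h
    exact ⟨hσ, fun x hx y hy => by simpa using hM x hx y hy⟩
  | succ m ih =>
    intro τ h
    simp only [sdIter, List.mem_flatMap] at h
    obtain ⟨ρ, hρ, hτ⟩ := h
    obtain ⟨h1, h2⟩ := ih ρ hρ
    refine ⟨sd_mem hS _ ρ h1 τ hτ, fun x hx y hy => ?_⟩
    have hl := sdIter_length m σ ρ hρ
    refine (sd_mesh _ ρ rfl _ (by positivity) h2 τ hτ x hx y hy).trans ?_
    rw [pow_succ' _ m, mul_assoc]
    refine mul_le_mul_of_nonneg_right ?_ (by positivity)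
    rcases Nat.eq_zero_or_pos ρ.length with h0 | h0
    · rw [h0]; simp; positivity
    have hr : (0 : ℝ) < ρ.length := by exact_mod_cast h0
    have hrN : (ρ.length : ℝ) ≤ N := by exact_mod_cast hl ▸ hN
    rw [div_le_div_iff₀ hr (by positivity)]
    nlinarith

end Subdivision

/-! ### The chains on the cross-polytope -/

section Cross

variable {n : ℕ}

/-- The `i`-th basis vector. -/
noncomputable def basisVec (n : ℕ) (i : ℕ) : Fin (n + 1) → ℝ := fun j => if j.val = i then 1 else 0

/-- The hemispherical chains. -/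
noncomputable def hemi (n : ℕ) : ℕ → List (List (Fin (n + 1) → ℝ))
  | 0 => [[basisVec n 0]]
  | k + 1 => (hemi n k ++ (hemi n k).map (List.map Neg.neg)).map (basisVec n (k + 1) :: ·)

lemma hemi_boundary : ∀ (k : ℕ) (φ : List (Fin (n + 1) → ℝ) → ZMod 2),
    ev (hemi n (k + 1)) (delta φ) = ev (hemi n k) φ + ev (hemi n k) (fun σ => φ (σ.map Neg.neg)) := by
  intro k
  induction k with
  | zero =>
    intro φ
    simp only [hemi, ev, List.cons_append, List.nil_append, List.map_cons, List.map_nil,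
      List.sum_cons, List.sum_nil, delta, add_zero]
    linear_combination CharTwo.add_self_eq_zero (φ [basisVec n 1])
  | succ k ih =>
    intro φ
    set ψ := fun x : List (Fin (n + 1) → ℝ) => φ (basisVec n (k + 1 + 1) :: x) with hψ
    have h1 : ∀ c : List (List (Fin (n + 1) → ℝ)),
        ev (c.map (basisVec n (k + 1 + 1) :: ·)) (delta φ) = ev c φ + ev c (delta ψ) := by
      intro c
      rw [← ev_add]
      simp only [ev, List.map_map, Function.comp_def, delta, hψ]
    rw [show hemi n (k + 1 + 1) = (hemi n (k + 1) ++ (hemi n (k + 1)).map (List.map Neg.neg)).map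
      (basisVec n (k + 1 + 1) :: ·) from rfl, h1]
    have happ : ∀ (θ : List (Fin (n + 1) → ℝ) → ZMod 2),
        ev (hemi n (k + 1) ++ (hemi n (k + 1)).map (List.map Neg.neg)) θ =
          ev (hemi n (k + 1)) θ + ev (hemi n (k + 1)) (fun σ => θ (σ.map Neg.neg)) := by
      intro θ
      simp only [ev, List.map_append, List.sum_append, List.map_map, Function.comp_def]
    rw [happ φ, happ (delta ψ)]
    have h2 : ev (hemi n (k + 1)) (fun σ => delta ψ (σ.map Neg.neg)) =
        ev (hemi n (k + 1)) (delta fun σ => ψ (σ.map Neg.neg)) :=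
      ev_congr _ fun σ _ => (delta_map Neg.neg ψ σ).symm
    rw [h2, ih ψ, ih fun σ => ψ (σ.map Neg.neg)]
    have h3 : ev (hemi n k) (fun σ => ψ ((σ.map Neg.neg).map Neg.neg)) = ev (hemi n k) ψ :=
      ev_congr _ fun σ _ => by simp [List.map_map]
    simp only [h3]
    linear_combination CharTwo.add_self_eq_zero
      (ev (hemi n k) ψ + ev (hemi n k) fun σ => ψ (σ.map Neg.neg))

lemma length_hemi : ∀ (k : ℕ), ∀ σ ∈ hemi n k, σ.length = k + 1
  | 0, σ, h => by simp [hemi] at h; simp [h]
  | k + 1, σ, h => by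
    simp only [hemi, List.mem_map, List.mem_append] at h
    obtain ⟨τ, hτ, rfl⟩ := h
    rcases hτ with hτ | ⟨ρ, hρ, rfl⟩
    · simp [length_hemi k τ hτ]
    · simp [length_hemi k ρ hρ]

/-- The closed face of the cross-polytope with sign vector `s`. -/
def facet (s : Fin (n + 1) → ℝ) : Set (Fin (n + 1) → ℝ) :=
  {x | (∀ i, 0 ≤ s i * x i) ∧ ∑ i, s i * x i = 1}

lemma facet_convex (s : Fin (n + 1) → ℝ) : Convex ℝ (facet s) := by
  intro x hx y hy a b ha hb hab
  refine ⟨fun i => ?_, ?_⟩
  · simp only [Pi.add_apply, Pi.smul_apply, smul_eq_mul]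
    have := hx.1 i; have := hy.1 i
    nlinarith
  · simp only [Pi.add_apply, Pi.smul_apply, smul_eq_mul, mul_add, Finset.sum_add_distrib]
    rw [show ∑ i, s i * (a * x i) = a * ∑ i, s i * x i by
        rw [Finset.mul_sum]; exact Finset.sum_congr rfl fun i _ => by ring,
      show ∑ i, s i * (b * y i) = b * ∑ i, s i * y i by
        rw [Finset.mul_sum]; exact Finset.sum_congr rfl fun i _ => by ring, hx.2, hy.2]
    linarith

lemma hemi_facet : ∀ (k : ℕ), k ≤ n → ∀ σ ∈ hemi n k, ∃ s : Fin (n + 1) → ℝ,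
    (∀ i, |s i| = 1) ∧ ∀ x ∈ σ, x ∈ facet s ∧ ∀ i : Fin (n + 1), k < i.val → x i = 0
  | 0, _, σ, h => by
    simp [hemi] at h
    subst h
    refine ⟨fun _ => 1, fun _ => abs_one, fun x hx => ?_⟩
    simp only [List.mem_singleton] at hx
    subst hx
    refine ⟨⟨fun i => by simp only [basisVec]; split <;> norm_num, ?_⟩, fun i hi => ?_⟩
    · rw [Finset.sum_eq_single (⟨0, by omega⟩ : Fin (n + 1))]
      · simp [basisVec]
      · intro b _ hb
        have : b.val ≠ 0 := fun h => hb (Fin.ext h)
        simp [basisVec, this]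
      · simp
    · simp only [basisVec]; rw [if_neg (by omega)]
  | k + 1, hk, σ, h => by
    simp only [hemi, List.mem_map, List.mem_append] at h
    obtain ⟨τ, hτ, rfl⟩ := h
    have hτ' : ∃ s : Fin (n + 1) → ℝ, (∀ i, |s i| = 1) ∧
        ∀ x ∈ τ, x ∈ facet s ∧ ∀ i : Fin (n + 1), k < i.val → x i = 0 := by
      rcases hτ with hτ | ⟨ρ, hρ, rfl⟩
      · exact hemi_facet k (by omega) τ hτ
      · obtain ⟨s, hs, hx⟩ := hemi_facet k (by omega) ρ hρ
        refine ⟨-s, fun i => by simp [hs i], fun x hx' => ?_⟩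
        obtain ⟨y, hy, rfl⟩ := List.mem_map.1 hx'
        obtain ⟨⟨h1, h2⟩, h3⟩ := hx y hy
        exact ⟨⟨fun i => by simpa using h1 i, by simpa using h2⟩, fun i hi => by simp [h3 i hi]⟩
    obtain ⟨s, hs, hx⟩ := hτ'
    refine ⟨Function.update s ⟨k + 1, by omega⟩ 1, fun i => ?_, fun x hx' => ?_⟩
    · rcases eq_or_ne i ⟨k + 1, by omega⟩ with rfl | hne
      · simp
      · rw [Function.update_of_ne hne]; exact hs i
    rcases List.mem_cons.1 hx' with rfl | hx'
    · refine ⟨⟨fun i => ?_, ?_⟩, fun i hi => ?_⟩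
      · rcases eq_or_ne i ⟨k + 1, by omega⟩ with rfl | hne
        · simp [basisVec]
        · have : i.val ≠ k + 1 := fun h => hne (Fin.ext h)
          simp [basisVec, this]
      · rw [Finset.sum_eq_single (⟨k + 1, by omega⟩ : Fin (n + 1))]
        · simp [basisVec]
        · intro b _ hb
          have : b.val ≠ k + 1 := fun h => hb (Fin.ext h)
          simp [basisVec, this]
        · simp
      · simp only [basisVec]; rw [if_neg (by omega)]
    · obtain ⟨⟨h1, h2⟩, h3⟩ := hx x hx'
      have e : ∀ i, Function.update s ⟨k + 1, by omega⟩ 1 i * x i = s i * x i := fun i => by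
        rcases eq_or_ne i ⟨k + 1, by omega⟩ with rfl | hne
        · simp [h3 ⟨k + 1, by omega⟩ (show k < k + 1 by omega)]
        · rw [Function.update_of_ne hne]
      exact ⟨⟨fun i => (e i).symm ▸ h1 i, by simp only [e]; exact h2⟩,
        fun i hi => h3 i (by omega)⟩

/-- The surface of the cross-polytope. -/
def cross (n : ℕ) : Set (Fin (n + 1) → ℝ) := {x | ∑ i, |x i| = 1}

lemma facet_subset {s : Fin (n + 1) → ℝ} (hs : ∀ i, |s i| = 1) : facet s ⊆ cross n := by
  intro x hx
  show ∑ i, |x i| = 1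
  rw [← hx.2]
  refine Finset.sum_congr rfl fun i _ => ?_
  rw [← abs_of_nonneg (hx.1 i), abs_mul, hs i, one_mul]

lemma cross_norm_le {x : Fin (n + 1) → ℝ} (hx : x ∈ cross n) : ‖x‖ ≤ 1 := by
  refine (pi_norm_le_iff_of_nonneg zero_le_one).2 fun i => ?_
  calc ‖x i‖ = |x i| := Real.norm_eq_abs _
    _ ≤ ∑ j, |x j| := Finset.single_le_sum (f := fun j => |x j|) (fun j _ => abs_nonneg _) (Finset.mem_univ i)
    _ = 1 := hx

lemma cross_compact (n : ℕ) : IsCompact (cross n) :=
  (isCompact_closedBall (0 : Fin (n + 1) → ℝ) 1).of_isClosed_subset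
    (isClosed_eq (by fun_prop) continuous_const)
    fun _ hx => mem_closedBall_zero_iff.2 (cross_norm_le hx)

/-- The coordinate-wise form: an odd continuous map `ℝ^(n+1) → ℝ^n` has a zero on the
cross-polytope. -/
theorem exists_zero_cross {n : ℕ} (f : (Fin (n + 1) → ℝ) → (Fin n → ℝ)) (hf : ContinuousOn f (cross n))
    (hodd : ∀ x ∈ cross n, f (-x) = -f x) : ∃ x ∈ cross n, f x = 0 := by
  classical
  rcases Nat.eq_zero_or_pos n with rfl | hn
  · refine ⟨basisVec 0 0, ?_, Subsingleton.elim _ _⟩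
    show ∑ i, |basisVec 0 0 i| = 1
    simp [basisVec]
  by_contra hne
  push Not at hne
  have : Nonempty (Fin n) := ⟨⟨0, hn⟩⟩
  obtain ⟨δ, hδ, hlow⟩ : ∃ δ > 0, ∀ x ∈ cross n, δ ≤ ‖f x‖ := by
    obtain ⟨x₀, hx₀, hmin⟩ := (cross_compact n).exists_isMinOn
      ⟨basisVec n 0, by
        show ∑ i, |basisVec n 0 i| = 1
        rw [Finset.sum_eq_single (0 : Fin (n + 1))]
        · simp [basisVec]
        · intro b _ hb
          have : b.val ≠ 0 := fun h => hb (Fin.ext h)
          simp [basisVec, this]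
        · simp⟩ hf.norm
    exact ⟨‖f x₀‖, norm_pos_iff.2 (hne x₀ hx₀), fun x hx => hmin hx⟩
  obtain ⟨η, hη, huc⟩ := Metric.uniformContinuousOn_iff.1
    ((cross_compact n).uniformContinuousOn_of_continuous hf) δ hδ
  obtain ⟨m, hm⟩ : ∃ m : ℕ, (((n + 1 : ℕ) : ℝ) / ((n + 1 : ℕ) + 1)) ^ m * 2 < η := by
    have h1 : (((n + 1 : ℕ) : ℝ) / ((n + 1 : ℕ) + 1)) < 1 := by
      rw [div_lt_one (by positivity)]; linarith
    obtain ⟨m, hm⟩ := exists_pow_lt_of_lt_one (half_pos hη) h1
    exact ⟨m, by linarith⟩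
  have hpick : ∀ v : Fin n → ℝ, ∃ i, ‖v‖ = |v i| := fun v => by
    obtain ⟨i, -, hi⟩ := Finset.exists_max_image Finset.univ (fun i => |v i|) Finset.univ_nonempty
    refine ⟨i, le_antisymm ((pi_norm_le_iff_of_nonneg (abs_nonneg _)).2 fun j => ?_) ?_⟩
    · rw [Real.norm_eq_abs]; exact hi j (Finset.mem_univ j)
    · rw [← Real.norm_eq_abs]; exact norm_le_pi_norm v i
  let idx : (Fin n → ℝ) → Fin n := fun v =>
    if h : (Finset.univ.filter fun i => |v i| = ‖v‖).Nonempty then
      (Finset.univ.filter fun i => |v i| = ‖v‖).min' h else ⟨0, hn⟩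
  have hidx : ∀ v : Fin n → ℝ, |v (idx v)| = ‖v‖ := fun v => by
    obtain ⟨i, hi⟩ := hpick v
    have h : (Finset.univ.filter fun i => |v i| = ‖v‖).Nonempty := ⟨i, by simp [hi]⟩
    simp only [idx, dif_pos h]
    exact (Finset.mem_filter.1 (Finset.min'_mem _ h)).2
  have hidx_neg : ∀ v : Fin n → ℝ, idx (-v) = idx v := fun v => by simp [idx]
  let lab : (Fin (n + 1) → ℝ) → ℕ × Bool := fun x =>
    ((idx (f x)).val, decide (0 < f x (idx (f x))))
  set C : ℕ → List (List (Fin (n + 1) → ℝ)) := fun k => (hemi n k).flatMap (sdIter m) with hC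
  have hspec : ∀ k ≤ n, ∀ σ ∈ C k, σ.length = k + 1 ∧ (∀ x ∈ σ, x ∈ cross n) ∧
      ∀ x ∈ σ, ∀ y ∈ σ, ‖x - y‖ < η := by
    intro k hk σ hσ
    simp only [hC, List.mem_flatMap] at hσ
    obtain ⟨τ, hτ, hστ⟩ := hσ
    obtain ⟨s, hs, hτs⟩ := hemi_facet k hk τ hτ
    have hl := length_hemi k τ hτ
    obtain ⟨h1, h2⟩ := sdIter_spec (facet_convex s) (fun x hx => (hτs x hx).1) (by norm_num : (0:ℝ) ≤ 2)
      (fun x hx y hy => (norm_sub_le x y).trans (by
        linarith [cross_norm_le (facet_subset hs (hτs x hx).1),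
          cross_norm_le (facet_subset hs (hτs y hy).1)]))
      (N := n + 1) (by omega) m σ hστ
    exact ⟨by rw [sdIter_length m τ σ hστ, hl], fun x hx => facet_subset hs (h1 x hx),
      fun x hx y hy => lt_of_le_of_lt (h2 x hx y hy) hm⟩
  have hneg : ∀ (k : ℕ) (φ : List (Fin (n + 1) → ℝ) → ZMod 2),
      ev (hemi n k) (fun σ => ev (sdIter m (σ.map Neg.neg)) φ) =
        ev (C k) (fun σ => φ (σ.map Neg.neg)) := by
    intro k φ
    rw [hC, ev_flatMap]
    refine congrArg List.sum (List.map_congr_left fun σ _ => ?_)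
    have e : σ.map Neg.neg = σ.map (-LinearMap.id : (Fin (n + 1) → ℝ) →ₗ[ℝ] (Fin (n + 1) → ℝ)) := rfl
    rw [e, map_sdIter]
    simp only [ev, List.map_map, Function.comp_def]
    rfl
  refine tucker (n := n) C lab (fun k hk φ => ?_) ?_ (fun σ hσ => ?_) (fun σ hσ x hx => (idx (f x)).2)
    (fun k hk σ hσ x hx => ?_) (fun k hk σ hσ x hx y hy e => ?_)
  · rw [hC, ev_flatMap, ← hneg k φ, ev_flatMap]
    have h1 : ((hemi n (k + 1)).map fun σ => ev (sdIter m σ) (delta φ)).sum =
        ev (hemi n (k + 1)) (delta fun τ => ev (sdIter m τ) φ) := by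
      refine congrArg List.sum (List.map_congr_left fun σ hσ => ?_)
      rw [sdIter_boundary m σ (by rw [length_hemi _ σ hσ]; omega), ev_faces]
    rw [h1, hemi_boundary]
    rfl
  · refine ⟨basisVec n 0, ?_⟩
    simp only [hC, hemi, List.flatMap_cons, List.flatMap_nil, List.append_nil]
    clear hspec hneg hm
    induction m with
    | zero => rfl
    | succ m ih => simp [sdIter, ih, sd, faces, bary]
  · rw [(hspec n le_rfl σ hσ).1]; omega
  · have hx' := (hspec k hk σ hσ).2.1 x hx
    simp only [lab, hodd x hx', hidx_neg, Pi.neg_apply]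
    have h0 : f x (idx (f x)) ≠ 0 := fun h => by
      have := hlow x hx'
      rw [← hidx, h, abs_zero] at this
      linarith
    rcases lt_or_gt_of_ne h0 with h | h
    · simp [h, h.le]
    · simp [h, h.le]
  · obtain ⟨-, hc, hclose⟩ := hspec k hk σ hσ
    simp only [lab] at e
    have hi : idx (f x) = idx (f y) := Fin.ext e
    have hd : dist (f x) (f y) < δ := huc x (hc x hx) y (hc y hy) (by
      rw [dist_eq_norm]; exact hclose x hx y hy)
    rw [dist_eq_norm] at hd
    have h1 := (norm_le_pi_norm (f x - f y) (idx (f y))).trans_lt hd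
    rw [Pi.sub_apply, Real.norm_eq_abs] at h1
    have hxl := hidx (f x)
    have hyl := hidx (f y)
    have hxd := hlow x (hc x hx)
    have hyd := hlow y (hc y hy)
    rw [hi] at hxl
    simp only [lab, hi, Prod.mk.injEq, true_and, decide_eq_decide]
    constructor <;> intro h <;> by_contra h' <;>
      rcases abs_cases (f x (idx (f y))) with ⟨ea, _⟩ | ⟨ea, _⟩ <;>
      rcases abs_cases (f y (idx (f y))) with ⟨eb, _⟩ | ⟨eb, _⟩ <;>
      rcases abs_cases (f x (idx (f y)) - f y (idx (f y))) with ⟨ec, _⟩ | ⟨ec, _⟩ <;>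
      linarith

end Cross

/-! ### The theorem -/

/-- **Borsuk–Ulam**: an odd continuous map from the unit sphere of a finite-dimensional space to a
space of smaller dimension vanishes somewhere. -/
theorem borsuk_ulam {E F : Type*} [NormedAddCommGroup E] [NormedSpace ℝ E] [FiniteDimensional ℝ E]
    [NormedAddCommGroup F] [NormedSpace ℝ F] [FiniteDimensional ℝ F]
    (hdim : Module.finrank ℝ F < Module.finrank ℝ E) (f : E → F)
    (hf : ContinuousOn f (sphere (0 : E) 1)) (hodd : ∀ x ∈ sphere (0 : E) 1, f (-x) = -f x) :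
    ∃ x ∈ sphere (0 : E) 1, f x = 0 := by
  set p := Module.finrank ℝ E
  set q := Module.finrank ℝ F
  obtain ⟨n, hp⟩ : ∃ n, p = n + 1 := ⟨p - 1, by omega⟩
  let eE : (Fin (n + 1) → ℝ) ≃L[ℝ] E := ContinuousLinearEquiv.ofFinrankEq (by rw [Module.finrank_fin_fun]; omega)
  let eF : F ≃L[ℝ] (Fin q → ℝ) := ContinuousLinearEquiv.ofFinrankEq (by simp [q])
  let u : (Fin (n + 1) → ℝ) → E := fun x => ‖eE x‖⁻¹ • eE x
  have hu : ∀ x ∈ cross n, u x ∈ sphere (0 : E) 1 := fun x hx => by
    rw [mem_sphere_zero_iff_norm, norm_smul, norm_inv, norm_norm, inv_mul_cancel₀]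
    rw [norm_ne_zero_iff]
    intro h
    have hx0 : x = 0 := eE.injective (h.trans (map_zero eE).symm)
    have hx' : ∑ i, |x i| = 1 := hx
    simp [hx0] at hx'
  have huc : ContinuousOn u (cross n) := by
    refine ContinuousOn.smul (ContinuousOn.inv₀ (by fun_prop) fun x hx h => ?_) (by fun_prop)
    have := mem_sphere_zero_iff_norm.1 (hu x hx)
    simp [u, h] at this
  let g : (Fin (n + 1) → ℝ) → (Fin n → ℝ) := fun x i =>
    if h : i.val < q then eF (f (u x)) ⟨i.val, h⟩ else 0
  have hgc : ContinuousOn g (cross n) := by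
    refine continuousOn_pi.2 fun i => ?_
    by_cases h : i.val < q
    · simp only [g, dif_pos h]
      exact (continuous_apply _).comp_continuousOn (eF.continuous.comp_continuousOn (hf.comp huc hu))
    · simp only [g, dif_neg h]; exact continuousOn_const
  have hu_neg : ∀ x, u (-x) = -u x := fun x => by simp [u]
  obtain ⟨x, hx, hx0⟩ := exists_zero_cross g hgc fun x hx => by
    funext i
    by_cases h : i.val < q
    · simp [g, h, hu_neg, hodd _ (hu x hx)]
    · simp [g, h]
  refine ⟨u x, hu x hx, eF.injective ?_⟩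
  rw [map_zero]
  funext j
  have h := congrFun hx0 ⟨j.val, by omega⟩
  simpa [g] using h

/-- Borsuk–Ulam in coincidence form. -/
theorem borsuk_ulam_eq {E F : Type*} [NormedAddCommGroup E] [NormedSpace ℝ E] [FiniteDimensional ℝ E]
    [NormedAddCommGroup F] [NormedSpace ℝ F] [FiniteDimensional ℝ F]
    (hdim : Module.finrank ℝ F < Module.finrank ℝ E) (f : E → F)
    (hf : ContinuousOn f (sphere (0 : E) 1)) : ∃ x ∈ sphere (0 : E) 1, f (-x) = f x := by
  have hneg : MapsTo Neg.neg (sphere (0 : E) 1) (sphere (0 : E) 1) := fun x hx => by simpa using hx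
  obtain ⟨x, hx, h⟩ := borsuk_ulam hdim (fun x => f x - f (-x))
    (hf.sub (hf.comp continuous_neg.continuousOn hneg))
    (fun x _ => by simp only [neg_neg, neg_sub])
  exact ⟨x, hx, (sub_eq_zero.1 h).symm⟩

end Vale.Agent.Common.BorsukUlam
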